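import Vale.Agent.P103.H865.Main

/-!
# P103: Shub's entropy conjecture fails for `C^1` maps which are `C^∞` off one smooth sphere of
codimension three
-/

namespace Vale.Agent.Results.P103.SmoothOffSphere

open Vale.Agent.P103 Vale.Agent.P103.H865
open scoped ContDiff

/-- The entropy conjecture is false; on `M = S¹ × S² × S³²⁷⁸` (`V`, `W` Euclidean spaces of
dimensions `3`, `3279`) there is a `C^1` map over an irrational rotation of `S¹`, with zero entropy
and eigenvalue `2` on `H_2(M;ℝ)`, which is `C^∞` (and `C^2`) exactly off the sphere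
`Z = {1} × {s} × S³²⁷⁸` and is not `C^(1+ε)` at `Z` for any `ε > 0`. -/
theorem result :
    ¬ EntropyConjecture ∧
    ∃ (V W : Type) (_ : NormedAddCommGroup V) (_ : InnerProductSpace ℝ V)
      (_ : NormedAddCommGroup W) (_ : InnerProductSpace ℝ W)
      (_ : Fact (Module.finrank ℝ V = 2 + 1)) (_ : Fact (Module.finrank ℝ W = 3278 + 1))
      (f : Mfd V W → Mfd V W) (s : Sp V) (a : Circle),
      CompactConnected V W ∧ (∀ y, SmoothAt 3278 1 f y) ∧ Violates f ∧
      (∀ y, (f y).1 = a * y.1) ∧ (∀ k : ℕ, 1 ≤ k → a ^ k ≠ 1) ∧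
      (∀ y, SmoothAt 3278 ∞ f y ↔ y ∉ Zs s) ∧ (∀ y, SmoothAt 3278 2 f y ↔ y ∉ Zs s) ∧
      ∀ w, IsSmall f s w 1 ∧ ∀ e : ℝ, 1 < e → IsLarge f s w e :=
  ⟨Vale.Agent.P103.main, Vale.Agent.P103.H865.main⟩

end Vale.Agent.Results.P103.SmoothOffSphere
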