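import Vale.Agent.P103.H162.Main

/-!
# P103: Shub's entropy conjecture fails for `C^1` maps whose whole dynamics is the rotation of two
circles
-/

namespace Vale.Agent.Results.P103.TwoCircles

open Vale.Agent.P103 Vale.Agent.P103.H162
open scoped Manifold ContDiff

theorem result :
    ¬ EntropyConjecture ∧
    ∃ (E : Type) (_ : NormedAddCommGroup E) (_ : NormedSpace ℝ E) (_ : FiniteDimensional ℝ E)
      (H : Type) (_ : TopologicalSpace H) (I : ModelWithCorners ℝ E H) (_ : I.Boundaryless)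
      (M : Type) (_ : MetricSpace M) (_ : ChartedSpace H M) (_ : IsManifold I ∞ M)
      (_ : CompactSpace M) (_ : ConnectedSpace M),
      (∀ k : ℕ, 1 ≤ k → ∃ g : C(M, M), Counterexample I g ((2 : ℝ) ^ k)) ∧
      ∀ (E' : Type) [NormedAddCommGroup E'] [NormedSpace ℝ E'] [FiniteDimensional ℝ E']
        (H' : Type) [TopologicalSpace H'] (I' : ModelWithCorners ℝ E' H') [I'.Boundaryless]
        (N : Type) [MetricSpace N] [ChartedSpace H' N] [IsManifold I' ∞ N] [CompactSpace N]
        [Nonempty N] (k : ℕ), 1 ≤ k →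
        ∃ g : C(M × N, M × N), Counterexample (I.prod I') g ((2 : ℝ) ^ k) := by
  refine ⟨Vale.Agent.P103.main, ?_⟩
  obtain ⟨P⟩ := exists_Par
  have h1 : ConnectedSpace Circle := connectedSpace_circle
  have h2 : ConnectedSpace (Sph ℂ) := connectedSpace_Sph ℂ (n := 2) (by norm_num) Fact.out
  have h3 : ConnectedSpace (Sph P.V) :=
    connectedSpace_Sph P.V (n := 2 * P.p) (by have := P.nt.two_le; omega) Fact.out
  refine ⟨_, _, _, inferInstance, _, _,
    (𝓡 1).prod ((𝓡 2).prod (𝓡 (2 * P.p))), inferInstance,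
    Circle × (Sph ℂ × Sph P.V), _, _, inferInstance, inferInstance, inferInstance,
    fun k hk => ⟨_, counterexample P hk⟩, ?_⟩
  intro E' _ _ _ H' _ I' _ N _ _ _ _ hN k hk
  obtain ⟨y₀⟩ := hN
  exact ⟨_, counterexample_prod P y₀ hk⟩

end Vale.Agent.Results.P103.TwoCircles
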