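import Vale.Agent.P103.H308.Prod

/-!
# P103: Shub's entropy conjecture for `C^1` maps fails, and by an arbitrarily large amount on one
fixed manifold and on all its products with other closed manifolds
-/

namespace Vale.Agent.Results.P103.UnboundedGapAllProducts

open Vale.Agent.P103
open scoped Manifold ContDiff

theorem result :
    ¬ EntropyConjecture ∧
    ∃ (E : Type) (_ : NormedAddCommGroup E) (_ : NormedSpace ℝ E) (_ : FiniteDimensional ℝ E)
      (H : Type) (_ : TopologicalSpace H) (I : ModelWithCorners ℝ E H) (_ : I.Boundaryless)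
      (M : Type) (_ : MetricSpace M) (_ : ChartedSpace H M) (_ : IsManifold I ∞ M)
      (_ : CompactSpace M) (_ : ConnectedSpace M),
      (∀ R : ℝ, ∃ (g : C(M, M)) (l : ℝ), ContMDiff I I 1 g ∧ IsTopEntropy g 0 ∧
        R ≤ l ∧ Module.End.HasEigenvalue (homologyMap 2 g) l ∧ ENNReal.ofReal R ≤ rho g) ∧
      ∀ (E' : Type) [NormedAddCommGroup E'] [NormedSpace ℝ E'] [FiniteDimensional ℝ E']
        (H' : Type) [TopologicalSpace H'] (I' : ModelWithCorners ℝ E' H') [I'.Boundaryless]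
        (N : Type) [MetricSpace N] [ChartedSpace H' N] [IsManifold I' ∞ N] [CompactSpace N]
        [Nonempty N] (R : ℝ),
        ∃ (g : C(M × N, M × N)) (l : ℝ), ContMDiff (I.prod I') (I.prod I') 1 g ∧
          IsTopEntropy g 0 ∧ R ≤ l ∧ Module.End.HasEigenvalue (homologyMap 2 g) l ∧
          ENNReal.ofReal R ≤ rho g := by
  refine ⟨Vale.Agent.P103.main, ?_⟩
  obtain ⟨P⟩ := exists_Par
  have h1 : ConnectedSpace Circle := connectedSpace_circle
  have h2 : ConnectedSpace (Sph ℂ) := connectedSpace_Sph ℂ (n := 2) (by norm_num) Fact.out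
  have h3 : ConnectedSpace (Sph P.V) :=
    connectedSpace_Sph P.V (n := 2 * P.p) (by have := P.nt.two_le; omega) Fact.out
  have hne : Nonempty (Circle × (Sph ℂ × Sph P.V)) := inferInstance
  obtain ⟨x, hx⟩ := P.hasEigenvalue_two.exists_hasEigenvector
  have hx1 : homologyMap 2 (⟨P.fM, P.fM_continuous⟩ : C(_, _)) x = (2 : ℝ) • x :=
    Module.End.mem_eigenspace_iff.mp hx.1
  have key : ∀ R : ℝ, ∃ k : ℕ, 1 ≤ k ∧ R ≤ (2 : ℝ) ^ k := by
    intro R
    obtain ⟨k, hk⟩ := pow_unbounded_of_one_lt R (one_lt_two (α := ℝ))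
    exact ⟨k + 1, by omega, hk.le.trans (pow_le_pow_right₀ one_le_two (Nat.le_succ k))⟩
  refine ⟨_, _, _, inferInstance, _, _,
    (𝓡 1).prod ((𝓡 2).prod (𝓡 (2 * P.p))), inferInstance,
    Circle × (Sph ℂ × Sph P.V), _, _, inferInstance, inferInstance, inferInstance, ?_, ?_⟩
  · intro R
    obtain ⟨k, hk, hR⟩ := key R
    have h4 := H308.homologyMap_powC _ 2 x hx1 k
    refine ⟨H308.powC ⟨P.fM, P.fM_continuous⟩ k, 2 ^ k, H308.contMDiff_iter P.fM_contMDiff k,
      H308.isTopEntropy_iter P.fM_entropy hk, hR, ?_, ?_⟩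
    · exact Module.End.hasEigenvalue_of_hasEigenvector
        ⟨Module.End.mem_eigenspace_iff.mpr h4, hx.2⟩
    · exact (ENNReal.ofReal_le_ofReal hR).trans
        (le_rho_of_eigenclass _ 2 (2 ^ k) x hx.2 h4 (by positivity))
  · intro E' _ _ _ H' _ I' _ N _ _ _ _ _ R
    obtain ⟨k, hk, hR⟩ := key R
    have h4 := H308.homologyMap_powC _ 2 x hx1 k
    obtain ⟨y, hy0, hy⟩ := H308.homologyMap_prod (N := N)
      (H308.powC ⟨P.fM, P.fM_continuous⟩ k) 2 x hx.2 h4
    refine ⟨(H308.powC ⟨P.fM, P.fM_continuous⟩ k).prodMap (ContinuousMap.id N), 2 ^ k, ?_, ?_, hR,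
      ?_, ?_⟩
    · exact (H308.contMDiff_iter P.fM_contMDiff k).prodMap contMDiff_id
    · exact H308.isTopEntropy_prod (N := N) (H308.isTopEntropy_iter P.fM_entropy hk)
    · exact Module.End.hasEigenvalue_of_hasEigenvector
        ⟨Module.End.mem_eigenspace_iff.mpr hy, hy0⟩
    · exact (ENNReal.ofReal_le_ofReal hR).trans
        (le_rho_of_eigenclass _ 2 (2 ^ k) y hy0 hy (by positivity))

end Vale.Agent.Results.P103.UnboundedGapAllProducts
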